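import Vale.Agent.P158.StraightShape
import Vale.Agent.P158.PlanarBox

/-!
The telescoping bound on the number of bent walks entering at one level, the two sides of which
have their own lengths.
-/

namespace Vale.Agent.P158.Bent

open Vale.Agent.P158
open Vale.Agent.P158.Straight (Meets Strip IsOffset site site_lev site_height height_le_of_walk
  not_mem_strip connIn_strip exists_walk_near exchange level_walk)

/-- A bent walk through the entrance edge at `y` whose competitors avoiding that edge cost at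
least `δ` more. -/
def Obj (k : ℤ) (n₁ n₂ R : ℕ) (v1 v2 δ : ℝ) (d y : V) (t : Conf) : Prop :=
  ∃ (a b y' : V) (wl : grid.Walk a (y - d)) (wm : grid.Walk y y') (wr : grid.Walk y' b),
    WalkIn (Strip k (-(n₁ : ℤ)) (-1)) wl ∧ WalkIn (Strip k 0 n₂) wr ∧ wm.length ≤ R ∧
    lev k a = -(n₁ : ℤ) ∧ lev k b = n₂ ∧ lev k y' = 0 ∧
    v1 * (-(n₁ : ℝ)) ≤ ((a.2 - y.2 : ℤ) : ℝ) ∧ v2 * n₂ ≤ ((b.2 - y.2 : ℤ) : ℝ) ∧
    ∀ w : grid.Walk a b, (∀ e ∈ w.darts, edgeOf e.toProd.1 e.toProd.2 ≠ edgeOf (y - d) y) →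
      plen t wl + t (edgeOf (y - d) y) + plen t wm + plen t wr + δ ≤ plen t w

/-- The weights at the edges starting near `y` are at most `M`. -/
def LocalLe (R : ℕ) (M : ℝ) (y : V) (t : Conf) : Prop :=
  ∀ e, InSq ((4 * R + 4 : ℕ) : ℤ) (eFst e - y) → t e ≤ M

theorem LocalLe.of_inRange {R : ℕ} {M : ℝ} {y : V} {t : Conf} (h : InRange M t) :
    LocalLe R M y t := fun e _ => (h e).2

/-- A dart of a walk is near the start of the walk. -/
theorem dart_near {x y : V} (p : grid.Walk x y) :
    (|y.1 - x.1| ≤ p.length ∧ |y.2 - x.2| ≤ p.length) ∧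
      ∀ f ∈ p.darts, |(eFst (edgeOf f.toProd.1 f.toProd.2)).1 - x.1| ≤ p.length ∧
        |(eFst (edgeOf f.toProd.1 f.toProd.2)).2 - x.2| ≤ p.length := by
  induction p with
  | nil => simp
  | @cons u v w h q ih =>
    obtain ⟨a1, a2⟩ := abs_sub_le_of_adj h
    have hl : (0 : ℤ) ≤ q.length := Int.natCast_nonneg _
    have hlen : (((SimpleGraph.Walk.cons h q).length : ℕ) : ℤ) = q.length + 1 := by simp
    rw [hlen]
    have tri : ∀ z : V, |z.1 - v.1| ≤ q.length → |z.2 - v.2| ≤ q.length →
        |z.1 - u.1| ≤ q.length + 1 ∧ |z.2 - u.2| ≤ q.length + 1 := fun z b1 b2 => by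
      rw [abs_le] at a1 a2 b1 b2 ⊢
      rw [abs_le]
      omega
    refine ⟨tri _ ih.1.1 ih.1.2, fun f hf => ?_⟩
    rcases List.mem_cons.1 (by simpa using hf) with rfl | hf'
    · rcases ends_edgeOf h with ⟨e1, -⟩ | ⟨e1, -⟩ <;> simp only [e1]
      · simp; omega
      · exact tri v (by simp) (by simp)
    · exact tri _ (ih.2 f hf').1 (ih.2 f hf').2

theorem plen_le_local {R : ℕ} {M : ℝ} {t : Conf} (hM : 0 ≤ M) {z : V} (h : LocalLe R M z t)
    {x y : V} (p : grid.Walk x y) {r : ℕ} (hx1 : |x.1 - z.1| ≤ r) (hx2 : |x.2 - z.2| ≤ r)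
    (hr : r + p.length ≤ 4 * R + 4) : plen t p ≤ M * p.length := by
  have hall : ∀ f ∈ p.darts, wt t f.toProd.1 f.toProd.2 ≤ M := fun f hf => by
    obtain ⟨b1, b2⟩ := (dart_near p).2 f hf
    refine h _ ?_
    rw [abs_le] at hx1 hx2 b1 b2
    simp only [InSq, Prod.fst_sub, Prod.snd_sub]
    have : ((r + p.length : ℕ) : ℤ) ≤ ((4 * R + 4 : ℕ) : ℤ) := by exact_mod_cast hr
    push_cast at this ⊢
    omega
  have h2 := List.sum_le_card_nsmul (p.darts.map fun f => wt t f.toProd.1 f.toProd.2) M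
    (by simp only [List.mem_map]; rintro _ ⟨f, hf, rfl⟩; exact hall f hf)
  simpa [plen, mul_comm] using h2

/-- The exchange value of an object: left reference, entrance, middle, right reference. -/
noncomputable def val (k : ℤ) (n₁ n₂ : ℕ) (t : Conf) (a0 b0 q y' : V) (e : Edge) (m : ℝ) : ℝ :=
  TS t (Strip k (-(n₁ : ℤ)) (-1)) a0 q + t e + m + TS t (Strip k 0 n₂) y' b0

theorem count_bound {k : ℤ} (hk : k = 0 ∨ k = 1) (hm : Meets k) {n₁ n₂ R D N : ℕ} (hn₁ : 2 ≤ n₁)
    (hn₂ : 2 ≤ n₂)
    (hD : 2 * R + 3 ≤ D) {d : V} (hd : IsOffset k d) {v1 v2 δ M : ℝ} {t : Conf}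
    (h0 : ∀ e, 0 ≤ t e) (hM : 0 ≤ M) {a0 b0 : V} (ha0 : lev k a0 = -(n₁ : ℤ)) (hb0 : lev k b0 = n₂)
    (ha1 : ((a0.2 : ℤ) : ℝ) ≤ v1 * (-(n₁ : ℝ))) (hb1 : ((b0.2 : ℤ) : ℝ) ≤ v2 * n₂)
    (I : Finset ℕ) (hI : ∀ i ∈ I, i ≤ N ∧ Obj k n₁ n₂ R v1 v2 δ d (site k D i) t) {U : ℝ}
    (hcost : ∀ i ∈ I, LocalLe R M (site k D i) t) (hU : ∀ i ∈ I, TS t (Strip k (-(n₁ : ℤ)) (-1)) a0 (site k D i - d) +
      TS t (Strip k 0 n₂) (site k D i) b0 ≤ U) (hne : I.Nonempty) :
    δ * ((I.card : ℝ) - 1) ≤ U + M * (3 * R + 1) - T t a0 b0 := by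
  classical
  set SL := Strip k (-(n₁ : ℤ)) (-1)
  set SR := Strip k 0 n₂
  have cL : ∀ {x y : V}, -(n₁ : ℤ) ≤ lev k x → lev k x ≤ -1 → -(n₁ : ℤ) ≤ lev k y →
      lev k y ≤ -1 → ConnIn SL x y := fun h1 h2 h3 h4 => connIn_strip hk (by omega) h1 h2 h3 h4
  have cR : ∀ {x y : V}, 0 ≤ lev k x → lev k x ≤ n₂ → 0 ≤ lev k y →
      lev k y ≤ n₂ → ConnIn SR x y := fun h1 h2 h3 h4 => connIn_strip hk (by omega) h1 h2 h3 h4
  have hI' : ∀ i : ℕ, i ∈ I → Obj k n₁ n₂ R v1 v2 δ d (site k D i) t := fun i hi => (hI i hi).2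
  choose a b y' wl wm wr hwl hwr hwm ha hb hy' hav hbv hmar using hI'
  let e : ℕ → Edge := fun i => edgeOf (site k D i - d) (site k D i)
  let Φ : ∀ i, i ∈ I → ℝ := fun i hi =>
    val k n₁ n₂ t a0 b0 (site k D i - d) (y' i hi) (e i) (plen t (wm i hi))
  have hq : ∀ i, lev k (site k D i - d) = -1 := fun i => by rw [hd.lev_sub, site_lev]; ring
  have low : ∀ i (hi : i ∈ I), T t a0 b0 ≤ Φ i hi := by
    intro i hi
    refine le_of_forall_pos_le_add fun ε hε => ?_
    obtain ⟨P, hP, hP'⟩ := exists_walk_near (t := t)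
      (cL (x := a0) (y := site k D i - d) (by omega) (by omega) (by rw [hq]; omega) (by rw [hq]))
      (half_pos hε)
    obtain ⟨Q, hQ, hQ'⟩ := exists_walk_near (t := t)
      (cR (x := y' i hi) (y := b0) (by rw [hy']) (by rw [hy']; omega) (by omega) (by omega))
      (half_pos hε)
    have := T_le h0 (P.append ((SimpleGraph.Walk.cons (hd.adj (site k D i)) (wm i hi)).append Q))
    rw [plen_append, plen_append, plen_cons] at this
    simp only [Φ, val, wt, e] at *
    linarith
  have step : ∀ i j (hi : i ∈ I) (hj : j ∈ I), i < j → Φ i hi + δ ≤ Φ j hj := by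
    intro i j hi hj hij
    have hgap : ((i * D : ℕ) : ℤ) + D ≤ ((j * D : ℕ) : ℤ) := by
      have : i * D + D ≤ j * D := by nlinarith
      exact_mod_cast this
    have hy_i := (height_le_of_walk (wm i hi)).1
    have hy_j := (height_le_of_walk (wm j hj)).1
    rw [abs_le, site_height] at hy_i hy_j
    have hRi : ((wm i hi).length : ℤ) ≤ R := by exact_mod_cast hwm i hi
    have hRj : ((wm j hj).length : ℤ) ≤ R := by exact_mod_cast hwm j hj
    have hdd := hd.height
    have hai : (a0.2 : ℤ) ≤ (a i hi).2 := by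
      have h1 := hav i hi
      have h2 : (0 : ℝ) ≤ (((site k D i).2 : ℤ) : ℝ) := by rw [site_height]; positivity
      push_cast at h1
      exact_mod_cast (by linarith : ((a0.2 : ℤ) : ℝ) ≤ (((a i hi).2 : ℤ) : ℝ))
    have hbi : (b0.2 : ℤ) ≤ (b i hi).2 := by
      have h1 := hbv i hi
      have h2 : (0 : ℝ) ≤ (((site k D i).2 : ℤ) : ℝ) := by rw [site_height]; positivity
      push_cast at h1
      exact_mod_cast (by linarith : ((b0.2 : ℤ) : ℝ) ≤ (((b i hi).2 : ℤ) : ℝ))
    have exL := exchange (t := t) h0 hm (A := -(n₁ : ℤ)) (B := -1) (by omega) ha0 (ha i hi) (hq i)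
      (hq j) hai (by rw [Prod.snd_sub, Prod.snd_sub, site_height, site_height]; omega)
      (cL (by omega) (by omega) (by rw [hq]; omega) (by rw [hq]))
      (cL (by rw [ha]) (by rw [ha]; omega) (by rw [hq]; omega) (by rw [hq]))
    have exR := exchange (t := t) h0 hm (A := 0) (B := (n₂ : ℤ)) (by omega) (hy' i hi) (hy' j hj)
      hb0 (hb i hi) (by omega) hbi
      (cR (by rw [hy']) (by rw [hy']; omega) (by rw [hb]; omega) (by rw [hb]))
      (cR (by rw [hy']) (by rw [hy']; omega) (by omega) (by omega))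
    have lL : TS t SL (a i hi) (site k D i - d) ≤ plen t (wl i hi) := TS_le h0 (hwl i hi)
    have lR : TS t SR (y' i hi) (b i hi) ≤ plen t (wr i hi) := TS_le h0 (hwr i hi)
    have mar : plen t (wl i hi) + t (e i) + plen t (wm i hi) + plen t (wr i hi) + δ ≤
        TS t SL (a i hi) (site k D j - d) + t (e j) + plen t (wm j hj) +
          TS t SR (y' j hj) (b i hi) := by
      refine le_of_forall_pos_le_add fun ε hε => ?_
      obtain ⟨P, hP, hP'⟩ := exists_walk_near (t := t)
        (cL (x := a i hi) (y := site k D j - d) (by rw [ha]) (by rw [ha]; omega) (by rw [hq]; omega)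
          (by rw [hq])) (half_pos hε)
      obtain ⟨Q, hQ, hQ'⟩ := exists_walk_near (t := t)
        (cR (x := y' j hj) (y := b i hi) (by rw [hy']) (by rw [hy']; omega) (by rw [hb]; omega)
          (by rw [hb])) (half_pos hε)
      have := hmar i hi (P.append ((SimpleGraph.Walk.cons (hd.adj (site k D j)) (wm j hj)).append Q))
        (fun f hf heq => by
          have hadj : Adj (site k D i - d) (site k D i) := hd.adj _
          rw [SimpleGraph.Walk.darts_append, List.mem_append, SimpleGraph.Walk.darts_append,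
            List.mem_append, SimpleGraph.Walk.darts_cons, List.mem_cons] at hf
          rcases hf with hf | (rfl | hf) | hf
          · exact not_mem_strip (k := k) (A := -(n₁ : ℤ)) (B := -1) hadj
              (by rw [hq, site_lev]; omega) (heq ▸ hP f hf)
          · rcases (edgeOf_eq_iff (hd.adj _) hadj).1 heq with ⟨h1, h2⟩ | ⟨h1, h2⟩
            · have := congrArg Prod.snd h2
              simp only [site_height] at this
              omega
            · have := congrArg (lev k) h2
              rw [hq, site_lev] at this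
              omega
          · have hh := (height_le_of_walk (wm j hj)).2 f hf
            rw [abs_le, abs_le, site_height] at hh
            rcases (edgeOf_eq_iff f.adj hadj).1 heq with ⟨h1, h2⟩ | ⟨h1, h2⟩
            · rw [h2, site_height] at hh
              omega
            · rw [h1, site_height] at hh
              omega
          · exact not_mem_strip (k := k) (A := 0) (B := (n₂ : ℤ)) hadj
              (by rw [hq, site_lev]; omega) (heq ▸ hQ f hf))
      rw [plen_append, plen_append, plen_cons] at this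
      simp only [wt, e] at *
      linarith
    simp only [Φ, val]
    linarith
  have tel : ∀ s : Finset ℕ, (hs : s ⊆ I) → ∀ hne : s.Nonempty,
      T t a0 b0 + δ * ((s.card : ℝ) - 1) ≤ Φ (s.max' hne) (hs (s.max'_mem hne)) := by
    intro s
    induction s using Finset.induction_on_max with
    | empty => intro _ hne; exact absurd hne (by simp)
    | insert x s hx ih =>
      intro hs hne
      have hmax : (insert x s).max' hne = x :=
        le_antisymm (Finset.max'_le _ _ _ fun y hy => by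
          rcases Finset.mem_insert.1 hy with rfl | hy
          · exact le_rfl
          · exact (hx y hy).le) (Finset.le_max' _ _ (Finset.mem_insert_self x s))
      have hxs : x ∉ s := fun h => lt_irrefl x (hx x h)
      have hxI : x ∈ I := hs (Finset.mem_insert_self x s)
      rw [Finset.card_insert_of_notMem hxs]
      simp only [hmax]
      rcases s.eq_empty_or_nonempty with rfl | hs'
      · simpa using low x hxI
      · have h1 := ih ((Finset.subset_insert x s).trans hs) hs'
        have h2 := step _ x (hs (Finset.mem_insert_of_mem (s.max'_mem hs'))) hxI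
          (hx _ (s.max'_mem hs'))
        push_cast
        linarith
  have top := tel I subset_rfl hne
  set m := I.max' hne
  have hmI : m ∈ I := I.max'_mem hne
  obtain ⟨P, hP, hPl⟩ := level_walk (A := 0) (B := (n₂ : ℤ)) hk (by omega) (hy' m hmI) (site_lev k D m)
  have h1 : TS t SR (y' m hmI) b0 ≤ M * (2 * R) + TS t SR (site k D m) b0 := by
    refine (TS_triangle h0 ⟨P, hP⟩ (cR (by rw [site_lev]) (by rw [site_lev]; omega) (by omega)
      (by omega))).trans (add_le_add ((TS_le h0 hP).trans ?_) le_rfl)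
    obtain ⟨⟨hy1, hy2⟩, -⟩ := dart_near (wm m hmI)
    have hR : ((wm m hmI).length : ℤ) ≤ R := by exact_mod_cast hwm m hmI
    rw [abs_le] at hy1 hy2
    have hlen : P.length ≤ 2 * R := by omega
    refine (plen_le_local hM (hcost m hmI) P (r := R) ?_ ?_ (by omega)).trans
      (mul_le_mul_of_nonneg_left (by exact_mod_cast hlen) hM) <;> rw [abs_le] <;> omega
  have h2 := plen_le_local hM (hcost m hmI) (wm m hmI) (r := 0) (by simp) (by simp)
    (by have := hwm m hmI; omega)
  have h3 : ((wm m hmI).length : ℝ) ≤ R := by exact_mod_cast hwm m hmI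
  have h4 : t (e m) ≤ M := by
    refine hcost m hmI _ ?_
    have hdd : d = (1, 0) ∨ d = (0, 1) := hd.2
    rcases ends_edgeOf (hd.adj (site k D m)) with ⟨e1, -⟩ | ⟨e1, -⟩ <;>
      simp only [e, e1] <;> rcases hdd with rfl | rfl <;> simp [InSq] <;> omega
  have h5 := hU m hmI
  have h6 := mul_le_mul_of_nonneg_left h3 hM
  simp only [Φ, val] at top
  linarith

end Vale.Agent.P158.Bent
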