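import Vale.Agent.P158.Bent.Step

/-!
Bent segments of two given lengths on a cone where the shape is linear are rare.
-/

open MeasureTheory Filter Topology

namespace Vale.Agent.P158.Bent

open Vale.Agent.P158
open Vale.Agent.P158.Straight (Meets Strip IsOffset site site_lev level_walk top_walk connIn_strip
  Shape Scaled frame vec scaled_pt close_arith)

theorem tendsto_ceil_div {c : ℝ} (hc : 0 ≤ c) :
    Tendsto (fun n : ℕ => (⌈c * n⌉₊ : ℝ) / n) atTop (𝓝 c) :=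
  (tendsto_nat_ceil_mul_div_atTop hc).comp tendsto_natCast_atTop_atTop

theorem tendsto_floor_mul {f : ℕ → ℕ} {c : ℝ} (hf : Tendsto (fun n : ℕ => (f n : ℝ) / n) atTop (𝓝 c))
    (r : ℝ) : Tendsto (fun n : ℕ => (⌊r * f n⌋ : ℝ) / n) atTop (𝓝 (r * c)) := by
  have h1 := hf.const_mul r
  refine tendsto_of_tendsto_of_tendsto_of_le_of_le' (g := fun n : ℕ => r * ((f n : ℝ) / n) - 1 / n)
    (by simpa using h1.sub (tendsto_const_div_atTop_nhds_zero_nat 1)) h1 ?_ ?_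
  · refine Eventually.of_forall fun n => ?_
    rw [mul_div_assoc', ← sub_div]
    gcongr
    linarith [Int.lt_floor_add_one (r * f n)]
  · refine Eventually.of_forall fun n => ?_
    rw [mul_div_assoc']
    gcongr
    exact Int.floor_le _

theorem eventually_two_le_ceil {c : ℝ} (hc : 0 < c) : ∀ᶠ n : ℕ in atTop, 2 ≤ ⌈c * n⌉₊ :=
  (tendsto_nat_ceil_atTop.comp
    (tendsto_natCast_atTop_atTop.const_mul_atTop hc)).eventually_ge_atTop 2

theorem grid_bound_aux {k : ℤ} (hk : k = 0 ∨ k = 1) {d : V} (hd : IsOffset k d) {M : ℝ} {t : Conf}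
    (hrange : InRange M t) {n n₁ n₂ : ℕ} (hn : 0 < n) (hn₁ : 2 ≤ n₁)
    (hn₂ : 2 ≤ n₂) (hM : 0 ≤ M) {θ : ℝ} (hθ : 0 < θ) {K : ℕ}
    (hK0 : (0 : ℝ) < K) {i D : ℕ} (_ : 0 ≤ i) (hiD : ((i * D : ℕ) : ℝ) ≤ θ * n) {a b : V} {W : ℝ}
    (hgrid : ∀ l, l ≤ K → lev k a = -(n₁ : ℤ) ∧ lev k b = n₂ ∧ ∃ A B : ℝ,
      TS t (Strip k (-(n₁ : ℤ)) (-1)) a (pt k 0 ⌊θ * l / K * n⌋ - d) ≤ A ∧
      TS t (Strip k 0 n₂) (pt k 0 ⌊θ * l / K * n⌋) b ≤ B ∧ A + B = W) :
    TS t (Strip k (-(n₁ : ℤ)) (-1)) a (site k D i - d) + TS t (Strip k 0 n₂) (site k D i) b ≤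
      W + M * (4 * θ * n / K + 12) := by
  have hn0 : (0 : ℝ) < n := by exact_mod_cast hn
  set l := ⌊((i * D : ℕ) : ℝ) * K / (θ * n)⌋₊
  have hl1 : (l : ℝ) ≤ ((i * D : ℕ) : ℝ) * K / (θ * n) := Nat.floor_le (by positivity)
  have hl2 : ((i * D : ℕ) : ℝ) * K / (θ * n) < l + 1 := Nat.lt_floor_add_one _
  have hlK : l ≤ K := by
    have : ((i * D : ℕ) : ℝ) * K / (θ * n) ≤ K := by
      rw [div_le_iff₀ (by positivity)]; nlinarith
    exact_mod_cast hl1.trans this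
  rw [le_div_iff₀ (by positivity)] at hl1
  rw [div_lt_iff₀ (by positivity)] at hl2
  have hdist : |((⌊θ * l / K * n⌋ - ((i * D : ℕ) : ℤ) : ℤ) : ℝ)| ≤ θ * n / K + 1 := by
    have hf1 := Int.floor_le (θ * l / K * (n : ℝ))
    have hf2 := Int.lt_floor_add_one (θ * l / K * (n : ℝ))
    have e1 : θ * l / K * n = (l * (θ * n)) / K := by ring
    have e2 : θ * n / K = (1 * (θ * n)) / K := by ring
    have h3 : θ * l / K * n ≤ ((i * D : ℕ) : ℝ) := by rw [e1, div_le_iff₀ hK0]; linarith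
    have h4 : ((i * D : ℕ) : ℝ) < θ * l / K * n + θ * n / K := by
      rw [e1, e2, ← add_div, lt_div_iff₀ hK0]; linarith
    have h5 : 0 ≤ θ * n / K := by positivity
    rw [Int.cast_sub, Int.cast_natCast, abs_le]
    constructor <;> linarith
  obtain ⟨ha, hb, A, B, hgL, hgR, hAB⟩ := hgrid l hlK
  have h0 : ∀ e, 0 ≤ t e := fun e => (hrange e).1
  set g : V := pt k 0 ⌊θ * l / K * n⌋
  have levpt : lev k g = 0 := by simp [g, lev, pt]
  have hlg : lev k (g - d) = -1 := by rw [hd.lev_sub, levpt]; ring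
  obtain ⟨P, hP, hPl⟩ := top_walk (A := -(n₁ : ℤ)) (B := -1) hk (by omega) hlg
    (y := site k D i - d) (by rw [hd.lev_sub, site_lev]; ring)
  obtain ⟨Q, hQ, hQl⟩ := level_walk (A := 0) (B := (n₂ : ℤ)) hk (by omega) (site_lev k D i)
    (y := g) levpt
  have cLn : ConnIn (Strip k (-(n₁ : ℤ)) (-1)) a (g - d) :=
    connIn_strip hk (by omega) (by rw [ha]) (by rw [ha]; omega) (by rw [hlg]; omega) (by rw [hlg])
  have cRn : ConnIn (Strip k 0 n₂) g b :=
    connIn_strip hk (by omega) (by rw [levpt]) (by rw [levpt]; omega) (by rw [hb]; omega)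
      (by rw [hb])
  have step1 := (TS_triangle h0 cLn ⟨P, hP⟩).trans
    (add_le_add le_rfl ((TS_le h0 hP).trans (plen_le_of_range hrange P)))
  have step2 := (TS_triangle h0 ⟨Q, hQ⟩ cRn).trans
    (add_le_add ((TS_le h0 hQ).trans (plen_le_of_range hrange Q)) le_rfl)
  have hPlen : (P.length : ℝ) ≤ 2 * (θ * n / K + 1) + 2 := by
    have h6 : ((site k D i - d).2 - (g - d).2) = -(⌊θ * l / K * n⌋ - ((i * D : ℕ) : ℤ)) := by
      simp [g, site, pt]
    have h7 : ((P.length : ℕ) : ℝ) ≤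
        2 * (((site k D i - d).2 - (g - d).2).natAbs : ℝ) + 2 := by exact_mod_cast hPl
    rw [h6, Int.natAbs_neg, Nat.cast_natAbs, Int.cast_abs] at h7
    linarith
  have hQlen : (Q.length : ℝ) ≤ 2 * (θ * n / K + 1) := by
    have h6 : (g.2 - (site k D i).2) = ⌊θ * l / K * n⌋ - ((i * D : ℕ) : ℤ) := by
      simp [g, site, pt]
    have h7 : ((Q.length : ℕ) : ℝ) ≤ 2 * ((g.2 - (site k D i).2).natAbs : ℝ) := by
      exact_mod_cast hQl
    rw [h6, Nat.cast_natAbs, Int.cast_abs] at h7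
    linarith
  have h8 := mul_le_mul_of_nonneg_left hPlen hM
  have h9 := mul_le_mul_of_nonneg_left hQlen hM
  have h10 : M * (4 * θ * n / K + 12) = M * (2 * (θ * n / K + 1) + 2) + M * (2 * (θ * n / K + 1))
      + 6 * M := by ring
  linarith

/-- Interpolation between the grid points on one level. -/
theorem grid_bound {k : ℤ} (hk : k = 0 ∨ k = 1) {d : V} (hd : IsOffset k d) {M : ℝ} {t : Conf}
    (hrange : InRange M t) {K : ℕ} (hK0 : (0 : ℝ) < K) {θ : ℝ} (hθ : 0 < θ) {n n₁ n₂ D : ℕ}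
    (hn : 0 < n) (hn₁ : 2 ≤ n₁) (hn₂ : 2 ≤ n₂)
    {i : ℕ} (hi : i ≤ ⌊θ * n / D⌋₊) {a b : V} {W : ℝ}
    (hgrid : ∀ l, l ≤ K → lev k a = -(n₁ : ℤ) ∧ lev k b = n₂ ∧ ∃ A B : ℝ,
      TS t (Strip k (-(n₁ : ℤ)) (-1)) a (pt k 0 ⌊θ * l / K * n⌋ - d) ≤ A ∧
      TS t (Strip k 0 n₂) (pt k 0 ⌊θ * l / K * n⌋) b ≤ B ∧ A + B = W) :
    TS t (Strip k (-(n₁ : ℤ)) (-1)) a (site k D i - d) + TS t (Strip k 0 n₂) (site k D i) b ≤
      W + M * (4 * θ * n / K + 12) := by
  have hn0 : (0 : ℝ) < n := by exact_mod_cast hn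
  have hM : 0 ≤ M := (hrange ((0, 0), false)).1.trans (hrange ((0, 0), false)).2
  rcases Nat.eq_zero_or_pos D with rfl | hD
  · exact grid_bound_aux hk hd hrange hn hn₁ hn₂ hM hθ hK0 (Nat.zero_le _) (by simp; positivity) hgrid
  refine grid_bound_aux hk hd hrange hn hn₁ hn₂ hM hθ hK0 (Nat.zero_le _) ?_ hgrid
  have h1 : ((i : ℕ) : ℝ) ≤ θ * n / D :=
    le_trans (by exact_mod_cast hi) (Nat.floor_le (by positivity))
  rw [le_div_iff₀ (by positivity)] at h1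
  push_cast; linarith

theorem seed_tendsto_zero {G : Measure ℝ} {M : ℝ} (hG : LawOK G M) {μ : ℝ × ℝ → ℝ}
    (hs : Shape G M μ) {k : ℤ} (hk : k = 0 ∨ k = 1) (hm : Meets k) {d : V} (hd : IsOffset k d)
    {v1 v2 : ℝ} (hv : v1 < v2) (hlin : μ (vec k v1 + vec k v2) = μ (vec k v1) + μ (vec k v2))
    (R : ℕ) {r₁ r₀ : ℝ} (hr : r₀ < r₁) (hr0 : 0 < G (Set.Iic r₀))
    {c₁ c₂ : ℝ} (hc₁ : 0 < c₁) (hc₂ : 0 < c₂) :
    Tendsto (fun n : ℕ => (law G {t | Seed k ⌈c₁ * n⌉₊ ⌈c₂ * n⌉₊ R v1 v2 r₁ d t}).toReal) atTop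
      (𝓝 0) := by
  classical
  have := hG.prob
  have : IsProbabilityMeasure (law G) := by unfold law; infer_instance
  set c := (G (Set.Iic r₀)).toReal
  have hc : 0 < c := ENNReal.toReal_pos hr0.ne' (measure_ne_top _ _)
  set δ := r₁ - r₀
  have hδ : 0 < δ := sub_pos.2 hr
  have hM0 : ∀ᵐ t ∂law G, InRange M t := by
    filter_upwards [hG.ae_conf hG.ae_mem] with t ht using ht
  obtain ⟨t₀, ht₀⟩ := hM0.exists
  have hM : 0 ≤ M := (ht₀ ((0, 0), false)).1.trans (ht₀ ((0, 0), false)).2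
  set ω := v2 - v1
  have hω : 0 < ω := sub_pos.2 hv
  set θ := ω * min c₁ c₂
  have hθ : 0 < θ := mul_pos hω (lt_min hc₁ hc₂)
  set D := 2 * R + 3
  refine tendsto_order.2 ⟨fun a ha => Eventually.of_forall fun n => ha.trans_le ENNReal.toReal_nonneg,
    fun ε' hε' => ?_⟩
  -- constants
  set η := ε' * θ * δ * c / (4 * D)
  have hη : 0 < η := by positivity
  obtain ⟨K, hK⟩ := exists_nat_gt (4 * M * θ / η)
  have hK0 : (0 : ℝ) < K := lt_of_le_of_lt (by positivity) hK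
  set ε := η / 4
  have hε : 0 < ε := by positivity
  -- the references
  set a0 : ℕ → V := fun n => pt k (-(⌈c₁ * n⌉₊ : ℤ)) ⌊(-v1) * (⌈c₁ * n⌉₊ : ℝ)⌋
  set b0 : ℕ → V := fun n => pt k ⌈c₂ * n⌉₊ ⌊v2 * (⌈c₂ * n⌉₊ : ℝ)⌋
  set g : ℕ → ℕ → V := fun l n => pt k 0 ⌊θ * l / K * n⌋
  set gq : ℕ → ℕ → V := fun l n => g l n - d
  have cn : Tendsto (fun n : ℕ => ((-(⌈c₁ * n⌉₊ : ℤ) : ℤ) : ℝ) / n) atTop (𝓝 (-c₁)) := by
    simpa [neg_div] using (tendsto_ceil_div hc₁.le).neg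
  have cp : Tendsto (fun n : ℕ => (((⌈c₂ * n⌉₊ : ℕ) : ℤ) : ℝ) / n) atTop (𝓝 c₂) := by
    simpa using tendsto_ceil_div hc₂.le
  have c0 : Tendsto (fun n : ℕ => (((0 : ℤ)) : ℝ) / n) atTop (𝓝 0) := by simp
  have sa : Scaled a0 (frame k (-c₁) (-v1 * c₁)) :=
    scaled_pt k cn (tendsto_floor_mul (tendsto_ceil_div hc₁.le) _)
  have sb : Scaled b0 (frame k c₂ (v2 * c₂)) :=
    scaled_pt k cp (tendsto_floor_mul (tendsto_ceil_div hc₂.le) _)
  have sg : ∀ l : ℕ, Scaled (g l) (frame k 0 (θ * l / K)) := fun l =>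
    scaled_pt k c0 (Straight.tendsto_floor_div _)
  have sgq : ∀ l : ℕ, Scaled (gq l) (frame k 0 (θ * l / K)) := fun l => by
    simpa [gq, sub_eq_add_neg] using (sg l).add_const (-d)
  have levpt : ∀ c s : ℤ, lev k (pt k c s) = c := fun c s => by simp [lev, pt]
  have hlg : ∀ l n, lev k (gq l n) = -1 := fun l n => by
    show lev k (g l n - d) = -1
    rw [hd.lev_sub, levpt]; ring
  have hlev : ∀ a b : ℝ, (frame k a b).1 + k * (frame k a b).2 = a := fun a b => by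
    simp [frame]
  -- linearity
  set μ1 := μ (vec k v1)
  set μ2 := μ (vec k v2)
  have lin : ∀ w ∈ Set.Icc v1 v2, μ (vec k w) = ((v2 - w) * μ1 + (w - v1) * μ2) / ω := by
    intro w hw
    have e : vec k w = ((v2 - w) / ω) • vec k v1 + ((w - v1) / ω) • vec k v2 := by
      have h1 : (v2 - w) / ω + (w - v1) / ω = 1 := by
        rw [← add_div, div_eq_one_iff_eq hω.ne']; ring
      have h2 : (v2 - w) / ω * v1 + (w - v1) / ω * v2 = w := by
        rw [div_mul_eq_mul_div, div_mul_eq_mul_div, ← add_div, div_eq_iff hω.ne']; ring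
      simp only [vec, frame, Prod.smul_mk, Prod.mk_add_mk, smul_eq_mul, Prod.mk.injEq]
      exact ⟨by linear_combination (k : ℝ) * h2 - h1, h2.symm⟩
    rw [e, hs.additive hlin (div_nonneg (by linarith [hw.2]) hω.le)
      (div_nonneg (by linarith [hw.1]) hω.le)]
    ring
  have mL : ∀ l : ℕ, l ≤ K →
      μ (frame k 0 (θ * l / K) - frame k (-c₁) (-v1 * c₁)) +
        μ (frame k c₂ (v2 * c₂) - frame k 0 (θ * l / K)) = c₁ * μ1 + c₂ * μ2 := by
    intro l hl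
    set x := θ * l / K
    have h1 : 0 ≤ x := by positivity
    have h2 : x ≤ θ := by
      rw [div_le_iff₀ hK0]
      exact mul_le_mul_of_nonneg_left (by exact_mod_cast hl) hθ.le
    have h3 : x / c₁ ≤ ω := by
      rw [div_le_iff₀ hc₁]
      exact h2.trans (mul_le_mul_of_nonneg_left (min_le_left _ _) hω.le)
    have h4 : x / c₂ ≤ ω := by
      rw [div_le_iff₀ hc₂]
      exact h2.trans (mul_le_mul_of_nonneg_left (min_le_right _ _) hω.le)
    have h5 : 0 ≤ x / c₁ := div_nonneg h1 hc₁.le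
    have h6 : 0 ≤ x / c₂ := div_nonneg h1 hc₂.le
    rw [show frame k 0 x - frame k (-c₁) (-v1 * c₁) = c₁ • vec k (v1 + x / c₁) by
        simp [vec, frame]; constructor <;> field_simp <;> ring,
      show frame k c₂ (v2 * c₂) - frame k 0 x = c₂ • vec k (v2 - x / c₂) by
        simp [vec, frame]; constructor <;> field_simp <;> ring,
      hs.smul _ _ hc₁.le, hs.smul _ _ hc₂.le,
      lin _ ⟨by linarith, by linarith⟩, lin _ ⟨by linarith, by linarith⟩]
    field_simp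
    ring
  have mab : μ (frame k c₂ (v2 * c₂) - frame k (-c₁) (-v1 * c₁)) = c₁ * μ1 + c₂ * μ2 := by
    rw [← hs.additive hlin hc₁.le hc₂.le]; congr 1
    simp [vec, frame]; constructor <;> ring
  -- the bad events
  set badT : ℕ → Set Conf := fun n =>
    {t | T t (a0 n) (b0 n) < n * (μ (frame k c₂ (v2 * c₂) - frame k (-c₁) (-v1 * c₁)) - ε)}
  set badL : ℕ → ℕ → Set Conf := fun l n =>
    {t | n * (μ (frame k 0 (θ * l / K) - frame k (-c₁) (-v1 * c₁)) + ε) <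
      TS t (Strip k (lev k (a0 n)) (lev k (gq l n))) (a0 n) (gq l n)}
  set badR : ℕ → ℕ → Set Conf := fun l n =>
    {t | n * (μ (frame k c₂ (v2 * c₂) - frame k 0 (θ * l / K)) + ε) <
      TS t (Strip k (lev k (g l n)) (lev k (b0 n))) (g l n) (b0 n)}
  have tT : Tendsto (fun n => (law G (badT n)).toReal) atTop (𝓝 0) := hs.lower _ _ _ _ sa sb ε hε
  have tL : ∀ l, Tendsto (fun n => (law G (badL l n)).toReal) atTop (𝓝 0) := fun l =>
    hs.strip k hk _ _ _ _ sa (sgq l) (by rw [hlev, hlev]; linarith) ε hε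
  have tR : ∀ l, Tendsto (fun n => (law G (badR l n)).toReal) atTop (𝓝 0) := fun l =>
    hs.strip k hk _ _ _ _ (sg l) sb (by rw [hlev, hlev]; linarith) ε hε
  set tot : ℕ → ℝ := fun n => (law G (badT n)).toReal +
    ∑ l ∈ Finset.range (K + 1), ((law G (badL l n)).toReal + (law G (badR l n)).toReal)
  have ttot : Tendsto tot atTop (𝓝 0) := by
    simpa using tT.add (tendsto_finset_sum (Finset.range (K + 1)) fun l _ => (tL l).add (tR l))
  -- the constant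
  set const : ℝ := M * (3 * R + 1) + 12 * M + δ
  have hconst : 0 ≤ const := by positivity
  have hclose : ∀ᶠ n : ℕ in atTop, (0 < n ∧ 2 ≤ ⌈c₁ * n⌉₊ ∧ 2 ≤ ⌈c₂ * n⌉₊) ∧ const / n < η ∧ tot n < c * ε' / 4 := by
    filter_upwards [(eventually_gt_atTop 0).and ((eventually_two_le_ceil hc₁).and (eventually_two_le_ceil hc₂)),
      (tendsto_const_div_atTop_nhds_zero_nat const).eventually (eventually_lt_nhds hη),
      ttot.eventually (eventually_lt_nhds (show (0 : ℝ) < c * ε' / 4 by positivity))] with n a b e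
    exact ⟨a, b, e⟩
  filter_upwards [hclose] with n ⟨⟨hn, hm₁, hm₂⟩, hn1, hn2⟩
  have hn0 : (0 : ℝ) < n := by exact_mod_cast hn
  set n₁ := ⌈c₁ * (n : ℝ)⌉₊ with hn₁
  set n₂ := ⌈c₂ * (n : ℝ)⌉₊ with hn₂
  set N := ⌊θ * n / D⌋₊
  set bad : Set Conf := {t | ¬ InRange M t} ∪ (badT n ∪
    ⋃ l ∈ Finset.range (K + 1), (badL l n ∪ badR l n))
  have hbadP : (law G bad).toReal ≤ tot n := by
    have h0 : law G {t | ¬ InRange M t} = 0 := ae_iff.1 hM0
    calc (law G bad).toReal ≤ (law G {t | ¬ InRange M t}).toReal + (law G (badT n ∪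
          ⋃ l ∈ Finset.range (K + 1), (badL l n ∪ badR l n))).toReal := measureReal_union_le _ _
      _ ≤ 0 + ((law G (badT n)).toReal +
          (law G (⋃ l ∈ Finset.range (K + 1), (badL l n ∪ badR l n))).toReal) :=
          add_le_add (by rw [h0]; simp) (measureReal_union_le _ _)
      _ ≤ _ := by
        rw [zero_add]
        refine add_le_add le_rfl ((measureReal_biUnion_finset_le _ _).trans ?_)
        exact Finset.sum_le_sum fun l _ => measureReal_union_le _ _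
  set U : ℝ := n * (c₁ * μ1 + c₂ * μ2 + 2 * ε) + M * (4 * θ * n / K + 12)
  set L : ℝ := n * (c₁ * μ1 + c₂ * μ2 - ε)
  have hUL : L ≤ U + M * (3 * R + 1) := by
    have h1 : (0 : ℝ) ≤ M * (4 * θ * n / K + 12) := by positivity
    have h2 : (0 : ℝ) ≤ M * (3 * R + 1) := by positivity
    simp only [U, L]; nlinarith
  have hbad : ∀ t ∉ bad, InRange M t ∧ L ≤ T t (a0 n) (b0 n) ∧ ∀ i ≤ N,
      TS t (Strip k (-(n₁ : ℤ)) (-1)) (a0 n) (site k D i - d) +
        TS t (Strip k 0 n₂) (site k D i) (b0 n) ≤ U := by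
    intro t ht
    simp only [bad, Set.mem_union, Set.mem_iUnion, not_or, not_exists, Set.mem_ofPred_eq, not_not,
      badT, mab, not_lt] at ht
    obtain ⟨hrange, hT, hgrid⟩ := ht
    refine ⟨hrange, hT, fun i hi => ?_⟩
    refine grid_bound hk hd hrange hK0 hθ hn hm₁ hm₂ hi (fun l hl => ?_)
    obtain ⟨hgL, hgR⟩ := hgrid l (Finset.mem_range.2 (by omega))
    simp only [badL, badR, Set.mem_ofPred_eq, not_lt, hlg, levpt, a0, b0, g] at hgL hgR
    exact ⟨levpt _ _, levpt _ _, _, _, hgL, hgR, by rw [← mL l hl]; ring⟩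
  have main := average_bound (G := G) (v1 := v1) (v2 := v2) (M := M) (r₁ := r₁) (r₀ := r₀) hk hm (N := N) (R := R) (D := D) (n₁ := n₁) (n₂ := n₂) hm₁ hm₂
    le_rfl hd hr (a0 := a0 n) (b0 := b0 n) (levpt _ _) (levpt _ _)
    (by simp only [a0, pt, hn₁]; have := Int.floor_le ((-v1) * ((⌈c₁ * n⌉₊ : ℕ) : ℝ)); linarith)
    (by simp only [b0, pt, hn₂]; exact Int.floor_le _) hUL hbad
  set P := (law G {t | Seed k n₁ n₂ R v1 v2 r₁ d t}).toReal
  have hN : θ * n / D < N + 1 := Nat.lt_floor_add_one _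
  have hNn : θ * n < (N + 1) * D := (div_lt_iff₀ (by positivity)).1 hN
  have e4 : U + M * (3 * R + 1) - L + δ = 3 * ε * n + 4 * M * θ / K * n + const := by
    simp only [U, L, const]; ring
  rw [e4] at main
  refine close_arith hδ hc hε' (by positivity) hn0 hK0 (by positivity) hNn ?_ ?_
    (hbadP.trans hn2.le) main
  · rw [div_lt_iff₀ hη] at hK; rw [div_lt_iff₀ hK0]; linarith
  · rwa [div_lt_iff₀ hn0] at hn1


end Vale.Agent.P158.Bent
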