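import Vale.Agent.P158.Bent.Linear
import Vale.Agent.P158.Spec3
import Vale.Agent.P158.StraightLine

/-!
Sites as seeds, and the split of the passage time at a site.
-/

namespace Vale.Agent.P158.Bent

open Vale.Agent.P158
open Vale.Agent.P158.Straight (Strip IsOffset edge0 edge_mem_strip lev_step isOffset_of_adj)

variable {t : Conf} {γ : ℤ → V} {i₀ i₁ : ℤ}

/-- The walk along a piece of a path, with its edges. -/
theorem seg_walk (hadj : ∀ m, i₀ ≤ m → m < i₁ → Adj (γ m) (γ (m + 1))) {p q : ℤ} (hp : i₀ ≤ p)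
    (hpq : p ≤ q) (hq : q ≤ i₁) :
    ∃ w : grid.Walk (γ p) (γ q), (w.length : ℤ) = q - p ∧
      plen t w = ∑ m ∈ Finset.Ico p q, wt t (γ m) (γ (m + 1)) ∧
      ∀ S : Set Edge, (∀ m, p ≤ m → m < q → edgeOf (γ m) (γ (m + 1)) ∈ S) → WalkIn S w := by
  obtain ⟨d, rfl⟩ : ∃ d : ℕ, q = p + d := ⟨(q - p).toNat, by omega⟩
  clear hpq
  induction d with
  | zero =>
    refine ⟨(SimpleGraph.Walk.nil : grid.Walk (γ p) (γ p)).copy rfl (by simp), by simp,
      by simp [plen_copy], fun S _ => WalkIn.copy walkIn_nil _ _⟩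
  | succ d ih =>
    push_cast at hq ⊢
    obtain ⟨w, h1, h2, h3⟩ := ih (by omega)
    have hA : grid.Adj (γ (p + d)) (γ (p + (d + 1))) := by
      rw [← add_assoc]; exact hadj _ (by omega) (by omega)
    refine ⟨w.concat hA, by rw [SimpleGraph.Walk.length_concat]; push_cast; omega, ?_,
      fun S hS => ?_⟩
    · have e : Finset.Ico p (p + (↑d + 1)) = insert (p + (d : ℤ)) (Finset.Ico p (p + d)) := by
        ext x; simp; omega
      rw [plen_concat, h2, e, Finset.sum_insert (by simp), add_assoc, add_comm]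
    · rw [SimpleGraph.Walk.concat_eq_append, walkIn_append_iff, walkIn_cons_iff]
      refine ⟨h3 S fun m a b => hS m a (by omega), ?_, walkIn_nil⟩
      rw [← add_assoc]
      exact hS _ (by omega) (by omega)

theorem sum_split (f : ℤ → ℝ) {a b c : ℤ} (hab : a ≤ b) (hbc : b ≤ c) :
    ∑ m ∈ Finset.Ico a c, f m = ∑ m ∈ Finset.Ico a b, f m + ∑ m ∈ Finset.Ico b c, f m := by
  rw [← Finset.sum_union (Finset.Ico_disjoint_Ico_consecutive a b c),
    Finset.Ico_union_Ico_eq_Ico hab hbc]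

variable {k : ℤ} {R : ℕ} {r₁ C : ℝ} {n₁ n₂ : ℕ} {i j : ℤ}

/-- The passage time between the two ends splits at the origin. -/
theorem site_split (h0 : ∀ e, 0 ≤ t e) (h : SiteSeg k R r₁ C n₁ n₂ t γ i₀ i₁ i j) :
    T t (γ i₀) 0 + T t 0 (γ i₁) ≤ T t (γ i₀) (γ i₁) := by
  have h1 := h.cross.lo.le
  have h2 : i ≤ i₁ := h.cross.le.trans h.cross.hi.le
  obtain ⟨u, -, hu, -⟩ := seg_walk (t := t) h.seg.adj le_rfl h1 h2
  obtain ⟨w, -, hw, -⟩ := seg_walk (t := t) h.seg.adj h1 h2 le_rfl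
  have e := h.seg.geo
  rw [sum_split _ h1 h2, ← hu, ← hw] at e
  have a1 := T_le h0 u
  have a2 := T_le h0 w
  have e1 : T t (γ i₀) 0 = T t (γ i₀) (γ i) := by rw [h.origin]
  have e2 : T t 0 (γ i₁) = T t (γ i) (γ i₁) := by rw [h.origin]
  linarith

/-- A site gives a seed at one of the offsets. -/
theorem seed_of_site (hk : k = 0 ∨ k = 1) (h0 : ∀ e, 0 ≤ t e)
    (h : SiteSeg k R r₁ C n₁ n₂ t γ i₀ i₁ i j) {v1 v2 : ℝ}
    (h1 : v1 * (-(n₁ : ℝ)) ≤ ((γ i₀).2 : ℝ)) (h2 : v2 * n₂ ≤ ((γ i₁).2 : ℝ)) :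
    ∃ d, IsOffset k d ∧ Seed k n₁ n₂ R v1 v2 r₁ d t := by
  have hlo := h.cross.lo
  have hle := h.cross.le
  have hhi := h.cross.hi
  have hlen := h.cross.len
  have hadj : Adj (γ (i - 1)) 0 := by
    simpa [h.origin] using h.seg.adj (i - 1) (by omega) (by omega)
  have hneg : lev k (γ (i - 1)) = -1 := by
    have a := h.cross.before (i - 1) (by omega) (by omega)
    have b := lev_step hk hadj
    have c : lev k (0 : V) = 0 := by simp [lev]
    rw [c, sub_zero, abs_le] at b
    omega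
  have hd : IsOffset k (-γ (i - 1)) := by
    refine isOffset_of_adj hk ?_ ?_
    · simpa [Adj] using hadj
    · simp only [lev, Prod.fst_neg, Prod.snd_neg] at *; linarith
  obtain ⟨wl, -, wlp, wlS⟩ := seg_walk (t := t) h.seg.adj (le_refl i₀) (by omega : i₀ ≤ i - 1)
    (by omega)
  obtain ⟨wm, wml, wmp, wmS⟩ := seg_walk (t := t) h.seg.adj hlo.le hle hhi.le
  obtain ⟨wr, -, wrp, wrS⟩ := seg_walk (t := t) h.seg.adj (by omega : i₀ ≤ j) hhi.le le_rfl
  refine ⟨-γ (i - 1), hd, ?_, γ i₀, γ i₁, γ j, wl.copy rfl (by simp), wm.copy h.origin rfl, wr,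
    ?_, ?_, ?_, ?_, h.lev₀, h.lev₁, h.cross.last, h1, h2, ?_⟩
  · have := h.heavy
    simpa [edge0, wt, h.origin] using this
  · refine WalkIn.copy (wlS _ fun m a b => (edge_mem_strip (h.seg.adj m a (by omega))).2 ?_) _ _
    have := h.strip m a (by omega)
    have := h.strip (m + 1) (by omega) (by omega)
    have := h.cross.before m a (by omega)
    have := h.cross.before (m + 1) (by omega) (by omega)
    omega
  · refine wrS _ fun m a b => (edge_mem_strip (h.seg.adj m (by omega) b)).2 ?_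
    have := h.strip m (by omega) b.le
    have := h.strip (m + 1) (by omega) (by omega)
    have := h.cross.after (m + 1) (by omega) (by omega)
    rcases a.eq_or_lt with rfl | hlt
    · have := h.cross.last; omega
    · have := h.cross.after m hlt b.le; omega
  · rw [SimpleGraph.Walk.length_copy]; omega
  · refine WalkIn.copy (wmS _ fun m a b => ?_) _ _
    intro he
    have hm := h.seg.adj m (by omega) (by omega)
    rcases (edgeOf_eq_iff hm (hd.adj 0)).1 he with ⟨e1, e2⟩ | ⟨e1, e2⟩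
    · have e3 : γ m = γ (i - 1) := by rw [e1]; simp
      have := h.seg.inj ⟨by omega, by omega⟩ ⟨by omega, by omega⟩ e3
      omega
    · have e3 : γ (m + 1) = γ (i - 1) := by rw [e2]; simp
      have := h.seg.inj ⟨by omega, by omega⟩ ⟨by omega, by omega⟩ e3
      omega
  · intro w
    have hw := T_le h0 w
    have e := h.seg.geo
    rw [sum_split _ (by omega : i₀ ≤ i - 1) (by omega : i - 1 ≤ i₁),
      sum_split _ (by omega : i - 1 ≤ i) (by omega : i ≤ i₁), sum_split _ hle hhi.le,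
      show Finset.Ico (i - 1) i = {i - 1} by ext x; simp; omega, Finset.sum_singleton,
      ← wlp, ← wmp, ← wrp, sub_add_cancel] at e
    have e2 : wt t (γ (i - 1)) 0 = wt t (γ (i - 1)) (γ i) := by rw [h.origin]
    rw [plen_copy, plen_copy,
      show t (edge0 (-γ (i - 1))) = wt t (γ (i - 1)) 0 by simp [edge0, wt]]
    linarith

end Vale.Agent.P158.Bent
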