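import Vale.Agent.P158.Bent.Count
import Vale.Agent.P158.Meas

/-!
Lowering the entrance edge, translating it along one level, and averaging the telescoping bound,
for two lengths.
-/

open MeasureTheory

namespace Vale.Agent.P158.Bent

open Vale.Agent.P158
open Vale.Agent.P158.Straight (Meets Strip IsOffset site site_lev edge0 strip_avoid
  emap_strip)

/-- A bent geodesic through the entrance edge at the origin, which has weight at least `r`. -/
def Seed (k : ℤ) (n₁ n₂ R : ℕ) (v1 v2 r : ℝ) (d : V) (t : Conf) : Prop :=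
  r ≤ t (edge0 d) ∧
  ∃ (a b y' : V) (wl : grid.Walk a ((0 : V) - d)) (wm : grid.Walk (0 : V) y')
    (wr : grid.Walk y' b),
    WalkIn (Strip k (-(n₁ : ℤ)) (-1)) wl ∧ WalkIn (Strip k 0 n₂) wr ∧ wm.length ≤ R ∧
    WalkIn {e | e ≠ edge0 d} wm ∧
    lev k a = -(n₁ : ℤ) ∧ lev k b = n₂ ∧ lev k y' = 0 ∧
    v1 * (-(n₁ : ℝ)) ≤ ((a.2 : ℤ) : ℝ) ∧ v2 * n₂ ≤ ((b.2 : ℤ) : ℝ) ∧
    ∀ w : grid.Walk a b,
      plen t wl + t (edge0 d) + plen t wm + plen t wr ≤ plen t w

/-- Lowering the entrance edge of a seed produces an object with margin. -/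
theorem Seed.lower {k : ℤ} {n₁ n₂ R : ℕ} {v1 v2 r₁ r₀ : ℝ} {d : V} (hd : IsOffset k d) {t : Conf}
    (h : Seed k n₁ n₂ R v1 v2 r₁ d t) {v : ({edge0 d} : Finset Edge) → ℝ}
    (hv : v ⟨edge0 d, Finset.mem_singleton_self _⟩ ≤ r₀) :
    Obj k n₁ n₂ R v1 v2 (r₁ - r₀) d 0 (override t {edge0 d} v) := by
  obtain ⟨hr, a, b, y', wl, wm, wr, hl, hr', hm, hm', ha, hb, hy, h1, h2, hmin⟩ := h
  set t' := override t {edge0 d} v
  have heq : ∀ e : Edge, e ≠ edge0 d → t' e = t e := fun e he => by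
    simp [t', override, he]
  have he0 : t' (edge0 d) = v ⟨edge0 d, Finset.mem_singleton_self _⟩ := by simp [t', override]
  refine ⟨a, b, y', wl, wm, wr, hl, hr', hm, ha, hb, hy, by simpa using h1, by simpa using h2,
    fun w hw => ?_⟩
  rw [Straight.plen_congr (fun e he => heq e (strip_avoid hd (Or.inl le_rfl) he)) hl,
    Straight.plen_congr (fun e he => heq e (strip_avoid hd (Or.inr le_rfl) he)) hr',
    Straight.plen_congr (fun e he => heq e he) hm',
    Straight.plen_congr (S := {e | e ≠ edge0 d}) (fun e he => heq e he) (p := w) (fun e he => hw e he)]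
  rw [show edgeOf ((0 : V) - d) 0 = edge0 d from rfl, he0]
  have := hmin w
  linarith

/-- Objects move with the configuration along their level. -/
theorem Obj.translate {k : ℤ} {n₁ n₂ R : ℕ} {v1 v2 δ : ℝ} {d : V} (y : V) (hy : lev k y = 0)
    {t : Conf} (h : Obj k n₁ n₂ R v1 v2 δ d 0 (shift y t)) : Obj k n₁ n₂ R v1 v2 δ d y t := by
  obtain ⟨a, b, y', wl, wm, wr, hl, hr, hm, ha, hb, hy', h1, h2, hmar⟩ := h
  set σ := shiftSym y
  have hpl : ∀ {u w : V} (p : grid.Walk u w), plen t (p.map σ.hom) = plen (shift y t) p :=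
    fun p => σ.plen_map t p
  have hσ : ∀ u : V, σ.hom u = u + y := fun u => rfl
  have e0 : σ.hom ((0 : V) - d) = y - d := by rw [hσ]; abel
  have e1 : σ.hom (0 : V) = y := by rw [hσ, zero_add]
  have hlev : ∀ u, lev k (σ.hom u) = lev k u := fun u => by
    rw [hσ]; simp only [lev] at *; simp only [Prod.fst_add, Prod.snd_add]; linarith
  have hed : edgeOf (y - d) y = σ.emap (edgeOf ((0 : V) - d) 0) := by
    simp [σ, shiftSym, edgeOf, Prod.ext_iff, sub_eq_neg_add]
    omega
  refine ⟨σ.hom a, σ.hom b, σ.hom y', (wl.map σ.hom).copy rfl e0, (wm.map σ.hom).copy e1 rfl,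
    wr.map σ.hom, ?_, ?_,
    by rw [SimpleGraph.Walk.length_copy, SimpleGraph.Walk.length_map]; exact hm, by rw [hlev]; exact ha, by rw [hlev]; exact hb,
    by rw [hlev]; exact hy', ?_, ?_, ?_⟩
  · refine WalkIn.copy ?_ _ _
    rw [← emap_strip y k _ _ hy]
    exact (σ.walkIn_map _ wl).2 hl
  · rw [← emap_strip y k _ _ hy]
    exact (σ.walkIn_map _ wr).2 hr
  · simpa [hσ] using h1
  · simpa [hσ] using h2
  · intro w hw
    have e2 : σ.symm.hom (σ.hom a) = a := σ.vmap.symm_apply_apply a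
    have e3 : σ.symm.hom (σ.hom b) = b := σ.vmap.symm_apply_apply b
    have hw' := hmar ((w.map σ.symm.hom).copy e2 e3) (fun f hf heq => by
      rw [SimpleGraph.Walk.darts_copy, SimpleGraph.Walk.darts_map, List.mem_map] at hf
      obtain ⟨g, hg, rfl⟩ := hf
      refine hw g hg ?_
      have h' : σ.symm.emap (edgeOf g.toProd.1 g.toProd.2) = edgeOf ((0 : V) - d) 0 :=
        (σ.symm.edge_map _ _ g.adj).trans heq
      rw [hed, ← h']
      exact (σ.emap.apply_symm_apply _).symm)
    rw [plen_copy] at hw'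
    rw [plen_copy, plen_copy, hpl, hpl, hpl]
    have hwp : plen (shift y t) (w.map σ.symm.hom) = plen t w := by
      rw [σ.symm.plen_map, shift_eq_act]
      exact congrArg (fun s => plen s w) (σ.act_symm_act t)
    rw [hwp] at hw'
    have : t (edgeOf (y - d) y) = shift y t (edgeOf ((0 : V) - d) 0) := by rw [hed]; rfl
    linarith

/-! ### Measurability -/

theorem measurableSet_obj (k : ℤ) (n₁ n₂ R : ℕ) (v1 v2 δ : ℝ) (d y : V) :
    MeasurableSet {t | Obj k n₁ n₂ R v1 v2 δ d y t} := by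
  simp only [Obj, Set.ofPred_exists, Set.ofPred_and]
  refine MeasurableSet.iUnion fun a => MeasurableSet.iUnion fun b => MeasurableSet.iUnion fun y' =>
    MeasurableSet.iUnion fun wl => MeasurableSet.iUnion fun wm => MeasurableSet.iUnion fun wr => ?_
  repeat' first
    | exact MeasurableSet.const _
    | refine MeasurableSet.inter ?_ ?_
  simp only [Set.ofPred_forall]
  refine MeasurableSet.iInter fun w => MeasurableSet.iInter fun _ => ?_
  exact measurableSet_le (((((measurable_plen wl).add (measurable_pi_apply _)).add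
    (measurable_plen wm)).add (measurable_plen wr)).add_const δ) (measurable_plen w)

section Law
variable {G : Measure ℝ} [IsProbabilityMeasure G]

theorem law_obj_ge {k : ℤ} {n₁ n₂ R : ℕ} {v1 v2 r₁ r₀ : ℝ} {d : V} (hd : IsOffset k d) :
    law G {t | Seed k n₁ n₂ R v1 v2 r₁ d t} * G (Set.Iic r₀) ≤
      law G {t | Obj k n₁ n₂ R v1 v2 (r₁ - r₀) d 0 t} := by
  have h := (measurePreserving_override (G := G) {edge0 d}).measure_preimage_le
    {t | Obj k n₁ n₂ R v1 v2 (r₁ - r₀) d 0 t}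
  refine le_trans ?_ h
  refine le_trans (le_of_eq ?_) (measure_mono
    (s := {t | Seed k n₁ n₂ R v1 v2 r₁ d t} ×ˢ Set.univ.pi fun _ => Set.Iic r₀) ?_)
  · rw [Measure.prod_prod, Measure.pi_pi]
    simp
  · rintro ⟨t, v⟩ ⟨ht, hv⟩
    exact Seed.lower hd ht (hv _ (Set.mem_univ _))

theorem law_obj_translate {k : ℤ} {n₁ n₂ R : ℕ} {v1 v2 δ : ℝ} {d : V} (y : V) (hy : lev k y = 0) :
    law G {t | Obj k n₁ n₂ R v1 v2 δ d 0 t} ≤ law G {t | Obj k n₁ n₂ R v1 v2 δ d y t} := by
  rw [← law_shift_preimage y]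
  exact measure_mono fun t ht => Obj.translate y hy ht

theorem average_bound {k : ℤ} (hk : k = 0 ∨ k = 1) (hm : Meets k) {n₁ n₂ R D N : ℕ}
    (hn₁ : 2 ≤ n₁) (hn₂ : 2 ≤ n₂)
    (hD : 2 * R + 3 ≤ D) {d : V} (hd : IsOffset k d) {v1 v2 r₁ r₀ M U L : ℝ} (hr : r₀ < r₁)
    {a0 b0 : V} (ha0 : lev k a0 = -(n₁ : ℤ)) (hb0 : lev k b0 = n₂)
    (ha1 : ((a0.2 : ℤ) : ℝ) ≤ v1 * (-(n₁ : ℝ))) (hb1 : ((b0.2 : ℤ) : ℝ) ≤ v2 * n₂)
    (hUL : L ≤ U + M * (3 * R + 1)) {bad : Set Conf}
    (hbad : ∀ t ∉ bad, InRange M t ∧ L ≤ T t a0 b0 ∧ ∀ i ≤ N,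
      TS t (Strip k (-(n₁ : ℤ)) (-1)) a0 (site k D i - d) +
        TS t (Strip k 0 n₂) (site k D i) b0 ≤ U) :
    (r₁ - r₀) * ((N + 1) * ((G (Set.Iic r₀)).toReal * (law G {t | Seed k n₁ n₂ R v1 v2 r₁ d t}).toReal))
      ≤ (U + M * (3 * R + 1) - L + (r₁ - r₀)) + (r₁ - r₀) * ((N + 1) * (law G bad).toReal) := by
  classical
  set δ := r₁ - r₀
  have hδ : 0 < δ := sub_pos.2 hr
  set A : ℝ := (U + M * (3 * R + 1) - L + δ) / δ
  have hA : 0 ≤ A := div_nonneg (by linarith) hδ.le
  let O : ℕ → Set Conf := fun i => {t | Obj k n₁ n₂ R v1 v2 δ d (site k D i) t}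
  let B := toMeasurable (law G) bad
  have hB : MeasurableSet B := measurableSet_toMeasurable _ _
  have point : ∀ t, ∑ i ∈ Finset.range (N + 1), (O i).indicator (fun _ => (1 : ENNReal)) t ≤
      ENNReal.ofReal A + (N + 1 : ℕ) * B.indicator (fun _ => 1) t := by
    intro t
    by_cases htB : t ∈ B
    · rw [Set.indicator_of_mem htB, mul_one]
      refine le_trans ?_ (le_add_self)
      refine (Finset.sum_le_card_nsmul _ _ 1 fun i _ => Set.indicator_le_self' (fun _ _ => zero_le) t).trans ?_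
      simp
    obtain ⟨hrange, hL, hU⟩ := hbad t fun h => htB (subset_toMeasurable _ _ h)
    set I := (Finset.range (N + 1)).filter fun i => t ∈ O i
    have hsum : ∑ i ∈ Finset.range (N + 1), (O i).indicator (fun _ => (1 : ENNReal)) t = I.card := by
      simp only [Set.indicator_apply, I, Finset.sum_boole]
    rw [hsum, Set.indicator_of_notMem htB, mul_zero, add_zero]
    rcases I.eq_empty_or_nonempty with hI | hI
    · simp [hI]
    · have h := count_bound (N := N) hk hm hn₁ hn₂ hD hd (fun e => (hrange e).1)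
        ((hrange ((0, 0), false)).1.trans (hrange ((0, 0), false)).2) ha0 hb0 ha1 hb1 I
        (fun i hi => by
          rw [Finset.mem_filter, Finset.mem_range] at hi
          exact ⟨by omega, hi.2⟩) (fun i _ => LocalLe.of_inRange hrange) (fun i hi => hU i (by
          rw [Finset.mem_filter, Finset.mem_range] at hi; omega)) hI
      rw [← ENNReal.ofReal_natCast]
      refine ENNReal.ofReal_le_ofReal ?_
      rw [le_div_iff₀ hδ]
      nlinarith
  have hint := lintegral_mono (μ := law G) point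
  rw [lintegral_finsetSum' _ fun i _ =>
      (measurable_const.indicator (measurableSet_obj k n₁ n₂ R v1 v2 δ d _)).aemeasurable,
    lintegral_add_left' aemeasurable_const, lintegral_const,
    lintegral_const_mul _ (measurable_const.indicator hB), lintegral_indicator_const hB,
    one_mul, measure_toMeasurable] at hint
  simp only [lintegral_indicator_const (measurableSet_obj k n₁ n₂ R v1 v2 δ d _), one_mul] at hint
  have : IsProbabilityMeasure (law G) := by unfold law; infer_instance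
  rw [measure_univ, mul_one] at hint
  have hlow : (N + 1 : ℕ) * (law G {t | Seed k n₁ n₂ R v1 v2 r₁ d t} * G (Set.Iic r₀)) ≤
      ∑ i ∈ Finset.range (N + 1), law G {t | Obj k n₁ n₂ R v1 v2 δ d (site k D i) t} := by
    refine le_trans ?_ (Finset.card_nsmul_le_sum _ _ _ fun i _ =>
      (law_obj_ge hd).trans (law_obj_translate _ (site_lev k D i)))
    simp
  have hfin := ENNReal.toReal_mono (by finiteness) (hlow.trans hint)
  rw [ENNReal.toReal_mul, ENNReal.toReal_mul,
    ENNReal.toReal_add ENNReal.ofReal_ne_top (by finiteness), ENNReal.toReal_ofReal hA,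
    ENNReal.toReal_mul, ENNReal.toReal_natCast] at hfin
  push_cast at hfin
  have hδA : δ * A = U + M * (3 * R + 1) - L + δ := mul_div_cancel₀ _ hδ.ne'
  have := mul_le_mul_of_nonneg_left hfin hδ.le
  rw [mul_add, hδA] at this
  linarith

end Law

end Vale.Agent.P158.Bent
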