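import Vale.Agent.P158.Bent.Site
import Vale.Agent.P158.Straight

/-!
Segments with two slopes on which the shape is strictly subadditive are rare.
-/

open MeasureTheory Filter Topology
open scoped ENNReal

namespace Vale.Agent.P158.Bent

open Vale.Agent.P158
open Vale.Agent.P158.Straight (Shape frame vec)

theorem tendsto_zero_of_toReal {G : Measure ℝ} [IsProbabilityMeasure (law G)] {s : ℕ → Set Conf}
    (h : Tendsto (fun n => (law G (s n)).toReal) atTop (𝓝 0)) :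
    Tendsto (fun n => law G (s n)) atTop (𝓝 0) :=
  (ENNReal.tendsto_toReal_iff (fun _ => measure_ne_top _ _) ENNReal.zero_ne_top).1 (by simpa using h)

theorem shape_continuous {G : Measure ℝ} {M : ℝ} {μ : ℝ × ℝ → ℝ} (hs : Shape G M μ) :
    Continuous μ := by
  refine (LipschitzWith.of_dist_le_mul (K := (2 * M).toNNReal) fun v w => ?_).continuous
  rw [Real.dist_eq, dist_eq_norm]
  refine (hs.lip v w).trans ?_
  have h1 : |(v - w).1| ≤ ‖v - w‖ := norm_fst_le (v - w)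
  have h2 : |(v - w).2| ≤ ‖v - w‖ := norm_snd_le (v - w)
  have h3 : 0 ≤ M := by
    have := (abs_nonneg _).trans (hs.lip (1, 0) 0)
    simpa [r1] using this
  rw [Real.coe_toNNReal _ (by linarith)]
  calc M * r1 (v - w) ≤ M * (‖v - w‖ + ‖v - w‖) := by unfold r1; gcongr
    _ = 2 * M * ‖v - w‖ := by ring

/-- A strict pair of slopes has a uniform gap. -/
theorem strict_gap {G : Measure ℝ} {M : ℝ} {μ : ℝ × ℝ → ℝ} (hs : Shape G M μ) {k : ℤ}
    {v1 v2 c₁ c₂ : ℝ} (hv : v1 < v2) (hc₁ : 0 < c₁) (hc₂ : 0 < c₂)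
    (hne : μ (vec k v1 + vec k v2) ≠ μ (vec k v1) + μ (vec k v2)) (C : ℝ) :
    ∃ η : ℝ, 0 < η ∧ ∀ a b : ℝ, -C ≤ a → a ≤ v1 → v2 ≤ b → b ≤ C →
      μ (c₁ • vec k a + c₂ • vec k b) + η ≤ c₁ * μ (vec k a) + c₂ * μ (vec k b) := by
  set S : Set (ℝ × ℝ) := Set.Icc (-C) v1 ×ˢ Set.Icc v2 C
  set f : ℝ × ℝ → ℝ := fun p =>
    c₁ * μ (vec k p.1) + c₂ * μ (vec k p.2) - μ (c₁ • vec k p.1 + c₂ • vec k p.2)
  rcases S.eq_empty_or_nonempty with hS | hS
  · refine ⟨1, one_pos, fun a b h1 h2 h3 h4 => absurd (show (a, b) ∈ S from ⟨⟨h1, h2⟩, h3, h4⟩) ?_⟩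
    simp [hS]
  have hvc : Continuous fun s : ℝ => vec k s := by simp only [vec, frame]; fun_prop
  have hμ := shape_continuous hs
  have hf : Continuous f := by simp only [f]; fun_prop
  obtain ⟨⟨a₀, b₀⟩, ⟨⟨ha1, ha2⟩, hb1, hb2⟩, hmin⟩ :=
    (isCompact_Icc.prod isCompact_Icc).exists_isMinOn hS hf.continuousOn
  refine ⟨f (a₀, b₀), ?_, fun a b h1 h2 h3 h4 => ?_⟩
  · by_contra hle
    rw [not_lt] at hle
    refine hne (le_antisymm (hs.add_le _ _) ?_)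
    have hab : a₀ < b₀ := by linarith
    have heq : μ (c₁ • vec k a₀ + c₂ • vec k b₀) = μ (c₁ • vec k a₀) + μ (c₂ • vec k b₀) := by
      refine le_antisymm (hs.add_le _ _) ?_
      rw [hs.smul _ _ hc₁.le, hs.smul _ _ hc₂.le]
      simp only [f] at hle
      linarith
    have huv : μ (vec k a₀ + vec k b₀) = μ (vec k a₀) + μ (vec k b₀) := by
      have := hs.additive heq (inv_pos.2 hc₁).le (inv_pos.2 hc₂).le
      rw [inv_smul_smul₀ hc₁.ne', inv_smul_smul₀ hc₂.ne', hs.smul _ _ hc₁.le, hs.smul _ _ hc₂.le,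
        inv_mul_cancel_left₀ hc₁.ne', inv_mul_cancel_left₀ hc₂.ne'] at this
      exact this
    have hd : 0 < b₀ - a₀ := sub_pos.2 hab
    have conv : ∀ w, a₀ ≤ w → w ≤ b₀ → ∃ p q : ℝ, 0 ≤ p ∧ 0 ≤ q ∧
        vec k w = p • vec k a₀ + q • vec k b₀ := by
      intro w h1 h2
      refine ⟨(b₀ - w) / (b₀ - a₀), (w - a₀) / (b₀ - a₀), div_nonneg (by linarith) hd.le,
        div_nonneg (by linarith) hd.le, ?_⟩
      simp only [vec, frame, Prod.smul_mk, Prod.mk_add_mk, smul_eq_mul, Prod.mk.injEq]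
      constructor <;> field_simp <;> ring
    obtain ⟨p1, q1, hp1, hq1, e1⟩ := conv v1 ha2 (by linarith)
    obtain ⟨p2, q2, hp2, hq2, e2⟩ := conv v2 (by linarith) hb1
    rw [e1, e2, show p1 • vec k a₀ + q1 • vec k b₀ + (p2 • vec k a₀ + q2 • vec k b₀) =
      (p1 + p2) • vec k a₀ + (q1 + q2) • vec k b₀ by module,
      hs.additive huv (add_nonneg hp1 hp2) (add_nonneg hq1 hq2), hs.additive huv hp1 hq1,
      hs.additive huv hp2 hq2]
    linarith
  · have h5 : f (a₀, b₀) ≤ f (a, b) := hmin (show (a, b) ∈ S from ⟨⟨h1, h2⟩, h3, h4⟩)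
    simp only [f] at h5 ⊢
    linarith

theorem r1_vec_le {k : ℤ} (hk : k = 0 ∨ k = 1) {C s : ℝ} (h : |s| ≤ C) :
    r1 (vec k s) ≤ 1 + 2 * C := by
  have := abs_le.1 h
  rcases hk with rfl | rfl <;> simp only [r1, vec, frame]
  · norm_num; linarith
  · have : |1 - (1 : ℤ) * s| ≤ 1 + C := by rw [abs_le]; push_cast; constructor <;> linarith
    linarith

/-- Slope events at a strict pair are rare. -/
theorem strict_tendsto_zero {G : Measure ℝ} {M κ : ℝ} (hG : LawOK G M) (hS : ShortBound G κ)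
    {k : ℤ} (hk : k = 0 ∨ k = 1) (R : ℕ) (r₁ C : ℝ) {v1 v2 c₁ c₂ : ℝ} (hv : v1 < v2)
    (hc₁ : 0 < c₁) (hc₂ : 0 < c₂)
    (hne : mu G (vec k v1 + vec k v2) ≠ mu G (vec k v1) + mu G (vec k v2)) :
    Tendsto (fun n : ℕ => law G {t | ∃ γ i₀ i₁ i j,
      SiteSeg k R r₁ C ⌈c₁ * n⌉₊ ⌈c₂ * n⌉₊ t γ i₀ i₁ i j ∧
      v1 * (-(⌈c₁ * n⌉₊ : ℝ)) ≤ ((γ i₀).2 : ℝ) ∧ v2 * (⌈c₂ * n⌉₊ : ℝ) ≤ ((γ i₁).2 : ℝ)})
      atTop (𝓝 0) := by
  have := hG.prob
  have : IsProbabilityMeasure (law G) := by unfold law; infer_instance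
  set μ := mu G
  have hs : Shape G M μ := Straight.shape hG hS
  obtain ⟨η, hη, hgap⟩ := strict_gap hs hv hc₁ hc₂ hne C
  have hM := hG.M_nonneg
  set C' := |C| with hC'
  set B : ℝ := M * (1 + 2 * C')
  obtain ⟨C0, hC0⟩ := exists_nat_gt ((1 + C') * (c₁ + c₂ + 1))
  refine tendsto_zero_of_toReal (Straight.toReal_tendsto_zero fun δ hδ => ?_)
  filter_upwards [shape_box hG hS C0 (show 0 < η / 6 by linarith) hδ,
    (tendsto_const_div_atTop_nhds_zero_nat (2 * B)).eventually_le_const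
      (show (0 : ℝ) < η / 4 by linarith), eventually_gt_atTop 0] with n hn hB hn0
  have hn' : (0 : ℝ) < n := by exact_mod_cast hn0
  rw [div_le_iff₀ hn'] at hB
  set n₁ := ⌈c₁ * (n : ℝ)⌉₊
  set n₂ := ⌈c₂ * (n : ℝ)⌉₊
  set bad : Set Conf := {t | ∃ x y : V, InBox (C0 * n) x ∧ InBox (C0 * n) y ∧
      η / 6 * n < |T t x y - mu G (toR y - toR x)|}
  refine le_trans (measure_mono (t := bad ∪ {t | ¬∀ e, 0 ≤ t e}) ?_)
    ((measure_union_le _ _).trans ?_)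
  swap
  · rw [show law G {t | ¬∀ e, 0 ≤ t e} = 0 from ae_iff.1 hG.ae_nonneg, add_zero]
    exact hn
  rintro t ⟨γ, i₀, i₁, i, j, h, h1, h2⟩
  by_cases h0 : ∀ e, 0 ≤ t e
  swap
  · exact Or.inr h0
  refine Or.inl ?_
  by_contra hbad
  simp only [bad, Set.mem_ofPred_eq, not_exists, not_and, not_lt] at hbad
  have hn1 : (0 : ℝ) < n₁ := Nat.cast_pos.2 (Nat.ceil_pos.2 (by positivity))
  have hn2 : (0 : ℝ) < n₂ := Nat.cast_pos.2 (Nat.ceil_pos.2 (by positivity))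
  have hu1 : (n₁ : ℝ) < c₁ * n + 1 := Nat.ceil_lt_add_one (by positivity)
  have hu2 : (n₂ : ℝ) < c₂ * n + 1 := Nat.ceil_lt_add_one (by positivity)
  have hl1 : c₁ * n ≤ (n₁ : ℝ) := Nat.le_ceil _
  have hl2 : c₂ * n ≤ (n₂ : ℝ) := Nat.le_ceil _
  have hCC : C ≤ C' := le_abs_self C
  have hC'0 : 0 ≤ C' := abs_nonneg C
  set a := γ i₀
  set b := γ i₁
  set sa : ℝ := -(a.2 : ℝ) / n₁
  set sb : ℝ := (b.2 : ℝ) / n₂
  have hsa : |sa| ≤ C := by
    rw [abs_div, abs_neg, Nat.abs_cast, div_le_iff₀ hn1]; exact h.slope₀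
  have hsb : |sb| ≤ C := by
    rw [abs_div, Nat.abs_cast, div_le_iff₀ hn2]; exact h.slope₁
  have hg := hgap sa sb (abs_le.1 hsa).1 (by rw [div_le_iff₀ hn1]; linarith)
    (by rw [le_div_iff₀ hn2]; exact h2) (abs_le.1 hsb).2
  set va := vec k sa
  set vb := vec k sb
  have la : (a.1 : ℝ) = -(n₁ : ℝ) - k * a.2 := by
    have e : a.1 + k * a.2 = -(n₁ : ℤ) := h.lev₀
    have e' : ((a.1 + k * a.2 : ℤ) : ℝ) = ((-(n₁ : ℤ) : ℤ) : ℝ) := by rw [e]
    push_cast at e'; linarith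
  have lb : (b.1 : ℝ) = (n₂ : ℝ) - k * b.2 := by
    have e : b.1 + k * b.2 = (n₂ : ℤ) := h.lev₁
    have e' : ((b.1 + k * b.2 : ℤ) : ℝ) = (((n₂ : ℕ) : ℤ) : ℝ) := by rw [e]
    push_cast at e'; linarith
  have ea : toR (0 : V) - toR a = (n₁ : ℝ) • va := by
    simp only [va, sa, toR, vec, frame, Prod.smul_mk, smul_eq_mul, Prod.mk_sub_mk, la,
      Prod.fst_zero, Prod.snd_zero, Prod.mk.injEq]
    constructor <;> push_cast <;> field_simp <;> ring
  have eb : toR b - toR (0 : V) = (n₂ : ℝ) • vb := by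
    simp only [vb, sb, toR, vec, frame, Prod.smul_mk, smul_eq_mul, Prod.mk_sub_mk, lb,
      Prod.fst_zero, Prod.snd_zero, Prod.mk.injEq]
    constructor <;> push_cast <;> field_simp <;> ring
  have eab : toR b - toR a = (n₁ : ℝ) • va + (n₂ : ℝ) • vb := by rw [← ea, ← eb]; abel
  have hk1 : |(k : ℝ)| ≤ 1 := by rcases hk with rfl | rfl <;> simp
  have hbox : ∀ (z : V) (m c : ℝ), 0 ≤ m → m ≤ c * n + 1 → c ≤ c₁ + c₂ →
      |(z.2 : ℝ)| ≤ C * m → |(z.1 : ℝ)| ≤ m + |(z.2 : ℝ)| → InBox (C0 * n) z := by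
    intro z m c hm hmc hc hz2 hz1
    have a1 : C * m ≤ C' * m := mul_le_mul_of_nonneg_right hCC hm
    have a3 : (1 : ℝ) ≤ n := by exact_mod_cast hn0
    have a2 : m ≤ (c₁ + c₂ + 1) * n := by
      have := mul_le_mul_of_nonneg_right hc hn'.le
      linarith
    have a4 : (1 + C') * m ≤ C0 * n := by
      refine (mul_le_mul_of_nonneg_left a2 (by linarith)).trans ?_
      rw [← mul_assoc]
      exact mul_le_mul_of_nonneg_right hC0.le hn'.le
    refine ⟨?_, ?_⟩ <;> rw [← Int.cast_le (R := ℝ)] <;> push_cast <;> nlinarith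
  have habs : ∀ z : ℤ, |(k : ℝ) * z| ≤ |(z : ℝ)| := fun z => by
    rw [abs_mul]; exact mul_le_of_le_one_left (abs_nonneg _) hk1
  have ha : InBox (C0 * n) a := hbox a n₁ c₁ hn1.le hu1.le (by linarith) h.slope₀ (by
    rw [la]; refine (abs_sub _ _).trans ?_; rw [abs_neg, Nat.abs_cast]; linarith [habs a.2])
  have hb : InBox (C0 * n) b := hbox b n₂ c₂ hn2.le hu2.le (by linarith) h.slope₁ (by
    rw [lb]; refine (abs_sub _ _).trans ?_; rw [Nat.abs_cast]; linarith [habs b.2])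
  have hz : InBox (C0 * n) (0 : V) := ⟨by simp; positivity, by simp; positivity⟩
  have t1 := (abs_le.1 (hbad a 0 ha hz)).1
  have t2 := (abs_le.1 (hbad 0 b hz hb)).1
  have t3 := (abs_le.1 (hbad a b ha hb)).2
  have t4 := site_split h0 h
  change -(η / 6 * n) ≤ T t a 0 - μ (toR (0 : V) - toR a) at t1
  change -(η / 6 * n) ≤ T t 0 b - μ (toR b - toR (0 : V)) at t2
  change T t a b - μ (toR b - toR a) ≤ η / 6 * n at t3
  rw [ea, hs.smul _ _ hn1.le] at t1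
  rw [eb, hs.smul _ _ hn2.le] at t2
  rw [eab, show (n₁ : ℝ) • va + (n₂ : ℝ) • vb = (n : ℝ) • (c₁ • va + c₂ • vb) +
    ((n₁ - c₁ * n : ℝ) • va + (n₂ - c₂ * n : ℝ) • vb) by module] at t3
  have hva : μ va ≤ B := (mu_le hG va).trans
    (mul_le_mul_of_nonneg_left (r1_vec_le hk (hsa.trans hCC)) hM)
  have hvb : μ vb ≤ B := (mu_le hG vb).trans
    (mul_le_mul_of_nonneg_left (r1_vec_le hk (hsb.trans hCC)) hM)
  have s1 := hs.add_le ((n : ℝ) • (c₁ • va + c₂ • vb))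
    ((n₁ - c₁ * n : ℝ) • va + (n₂ - c₂ * n : ℝ) • vb)
  have s2 := hs.add_le ((n₁ - c₁ * n : ℝ) • va) ((n₂ - c₂ * n : ℝ) • vb)
  rw [hs.smul _ _ hn'.le] at s1
  rw [hs.smul _ _ (sub_nonneg.2 hl1), hs.smul _ _ (sub_nonneg.2 hl2)] at s2
  have hna : 0 ≤ μ va := mu_nonneg hG va
  have hnb : 0 ≤ μ vb := mu_nonneg hG vb
  have u1 : ((n₁ : ℝ) - c₁ * n) * μ va ≤ B := by
    refine le_trans ?_ hva
    exact mul_le_of_le_one_left hna (by linarith)
  have u2 : ((n₂ : ℝ) - c₂ * n) * μ vb ≤ B := by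
    refine le_trans ?_ hvb
    exact mul_le_of_le_one_left hnb (by linarith)
  have w1 := mul_le_mul_of_nonneg_right hl1 hna
  have w2 := mul_le_mul_of_nonneg_right hl2 hnb
  have w3 := mul_le_mul_of_nonneg_left hg hn'.le
  have w4 : 0 < η * n := mul_pos hη hn'
  linarith

end Vale.Agent.P158.Bent
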